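import Crest.Agent.N337.Rep.Path

/-!
# Row 337, RepStmt, part 4: cyclic maximum principle, orbits of the space-time permutation
-/

set_option autoImplicit false
set_option linter.unusedSectionVars false

namespace Crest.Agent.N337.Rep

open Finset Equiv Matrix

variable {Λ : Type} [Fintype Λ] [DecidableEq Λ] {T : ℕ} [NeZero T]

lemma val_nsmul_one (j : Fin T) : j.val • (1 : Fin T) = j := by
  have : ∀ n : ℕ, (n • (1 : Fin T)).val = n % T := by
    intro n
    induction n with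
    | zero => simp
    | succ n ih => rw [succ_nsmul, Fin.val_add, ih, Fin.val_one', ← Nat.add_mod]
  exact Fin.ext (by rw [this, Nat.mod_eq_of_lt j.2])

lemma cyc_bound {ζ : Fin T → ℝ} (h0 : ∀ s, 0 ≤ ζ s) (h1 : ∀ s, ζ s ≤ 1) (hz : ∏ s, ζ s < 1)
    (m : Fin T → ℝ) (s0 : Fin T) {c : ℝ} (hc : 0 ≤ c)
    (h : ∀ s, m (s + 1) ≤ (if s + 1 = s0 then c else 0) + ζ s * m s) (s : Fin T) :
    m s ≤ c / (1 - ∏ s, ζ s) := by
  have key : ∀ n : ℕ, m (s + n • (1 : Fin T)) ≤
      ∑ j ∈ range n, (if s + j • (1 : Fin T) + 1 = s0 then c else 0) +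
        (∏ j ∈ range n, ζ (s + j • (1 : Fin T))) * m s := by
    intro n
    induction n with
    | zero => simp
    | succ n ih =>
      rw [succ_nsmul, ← add_assoc, sum_range_succ, prod_range_succ]
      have h2 : 0 ≤ ∑ j ∈ range n, (if s + j • (1 : Fin T) + 1 = s0 then c else 0) :=
        sum_nonneg fun j _ => by split_ifs; exacts [hc, le_rfl]
      have h3 := mul_le_mul_of_nonneg_left ih (h0 (s + n • (1 : Fin T)))
      have h4 := mul_le_mul_of_nonneg_right (h1 (s + n • (1 : Fin T))) h2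
      have h5 := h (s + n • (1 : Fin T))
      nlinarith
  have h2 := key T
  have hT : T • (1 : Fin T) = 0 := by
    have := card_nsmul_eq_zero (G := Fin T) (x := 1)
    rwa [Fintype.card_fin] at this
  rw [hT, add_zero, ← Fin.sum_univ_eq_sum_range
      (fun j => if s + j • (1 : Fin T) + 1 = s0 then c else 0),
    ← Fin.prod_univ_eq_prod_range (fun j => ζ (s + j • (1 : Fin T)))] at h2
  simp only [val_nsmul_one] at h2
  rw [show ∏ j, ζ (s + j) = ∏ j, ζ j from Equiv.prod_comp (Equiv.addLeft s) ζ] at h2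
  have h3 : ∀ j : Fin T, s + j + 1 = s0 ↔ j = s0 - 1 - s := fun j => by
    constructor
    · rintro rfl; abel
    · rintro rfl; abel
  simp only [h3, sum_ite_eq', mem_univ, if_true] at h2
  rw [le_div_iff₀ (by linarith)]
  linarith

lemma max_principle {ζ : Fin T → ℝ} (h0 : ∀ s, 0 ≤ ζ s) (h1 : ∀ s, ζ s ≤ 1) (hz : ∏ s, ζ s < 1)
    (K : Fin T → Matrix Λ Λ ℝ) (hK : ∀ s y x, 0 ≤ K s y x) (hK1 : ∀ s y, ∑ x, K s y x ≤ 1)
    (F : Fin T × Λ → ℝ) (s0 : Fin T) {c : ℝ} (hc : 0 ≤ c)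
    (h : ∀ s y, F (s + 1, y) ≤ (if s + 1 = s0 then c else 0) + ζ s * ∑ x, K s y x * F (s, x))
    (v : Fin T × Λ) : F v ≤ c / (1 - ∏ s, ζ s) := by
  set m : Fin T → ℝ := fun s => univ.fold max 0 fun y => F (s, y) with hm
  have hm0 : ∀ s, 0 ≤ m s := fun s => (le_fold_max _).2 (Or.inl le_rfl)
  have hm1 : ∀ s y, F (s, y) ≤ m s := fun s y =>
    (le_fold_max _).2 (Or.inr ⟨y, mem_univ _, le_rfl⟩)
  refine (hm1 v.1 v.2).trans (cyc_bound h0 h1 hz m s0 hc (fun s => ?_) v.1)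
  refine (fold_max_le _).2 ⟨add_nonneg (by split_ifs; exacts [hc, le_rfl])
    (mul_nonneg (h0 s) (hm0 s)), fun y _ => (h s y).trans ?_⟩
  gcongr
  · exact h0 s
  calc ∑ x, K s y x * F (s, x) ≤ ∑ x, K s y x * m s :=
        sum_le_sum fun x _ => mul_le_mul_of_nonneg_left (hm1 s x) (hK s y x)
    _ ≤ 1 * m s := by
        rw [← sum_mul]; exact mul_le_mul_of_nonneg_right (hK1 s y) (hm0 s)
    _ = m s := one_mul _

lemma exists_time (ex ey : Fin T → Λ) (ξ : Fin T → Bool) (g : Orb (Sg ex ey ξ)) (s : Fin T) :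
    ∃ x, o (Sg ex ey ξ) (s, x) = g := by
  obtain ⟨v, rfl⟩ := o_surj _ g
  have key : ∀ k : ℕ, ((Sg ex ey ξ ^ k) v).1 = v.1 + k • (1 : Fin T) := by
    intro k
    induction k with
    | zero => simp
    | succ k ih =>
      rw [pow_succ', Perm.mul_apply, succ_nsmul, ← add_assoc, ← ih]; rfl
  refine ⟨((Sg ex ey ξ ^ (s - v.1).val) v).2, ?_⟩
  rw [← o_pow _ (s - v.1).val v]
  congr 1
  refine Prod.ext ?_ rfl
  rw [key, val_nsmul_one]; simp

lemma card_orb_le (ex ey : Fin T → Λ) (ξ : Fin T → Bool) :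
    Fintype.card (Orb (Sg ex ey ξ)) ≤ Fintype.card Λ :=
  Fintype.card_le_of_surjective (fun x => o (Sg ex ey ξ) (0, x)) fun g => exists_time ex ey ξ g 0

lemma det_gm_pos (ex ey : Fin T → Λ) (ξ : Fin T → Bool) {ζ : Fin T → ℝ} (h0 : ∀ s, 0 ≤ ζ s)
    (h1 : ∀ s, ζ s ≤ 1) (hz : ∏ s, ζ s < 1) (ω : Fin T × Λ → Option Bool) :
    0 < (gm (Sg ex ey ξ) (fun v => ζ v.1) ω).det := by
  obtain ⟨s, hs⟩ : ∃ s, ζ s < 1 := by
    by_contra hh
    push Not at hh
    rw [prod_eq_one fun s _ => le_antisymm (h1 s) (hh s)] at hz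
    exact lt_irrefl _ hz
  rw [det_gm]
  refine prod_pos fun g _ => sub_pos.2 ?_
  obtain ⟨x, hx⟩ := exists_time ex ey ξ g s
  have hm : (s, x) ∈ univ.filter (fun v => o (Sg ex ey ξ) v = g) :=
    mem_filter.2 ⟨mem_univ _, hx⟩
  have e0 : ∀ v, 0 ≤ zg (fun v : Fin T × Λ => ζ v.1) ω v := fun v => by
    unfold zg; split_ifs; exacts [h0 _, le_rfl]
  have e1 : ∀ v, zg (fun v : Fin T × Λ => ζ v.1) ω v ≤ ζ v.1 := fun v => by
    unfold zg; split_ifs; exacts [le_rfl, h0 _]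
  rw [pr, ← mul_prod_erase _ _ hm]
  calc _ ≤ zg (fun v : Fin T × Λ => ζ v.1) ω (s, x) * 1 :=
        mul_le_mul_of_nonneg_left
          (prod_le_one (fun v _ => e0 v) fun v _ => (e1 v).trans (h1 _)) (e0 _)
    _ < 1 := by rw [mul_one]; exact (e1 _).trans_lt hs

/-- averaging one bit against a function that does not depend on it. -/
lemma sum_bit (w : Fin T → Bool → ℝ) (s : Fin T) (θ : ℝ)
    (hθ : θ * (w s true + w s false) = w s true) (φ : (Fin T → Bool) → ℝ)
    (hφ : ∀ ξ b, φ (Function.update ξ s b) = φ ξ) :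
    ∑ ξ : Fin T → Bool, (∏ r, w r (ξ r)) * (((if ξ s = true then 1 else 0) - θ) * φ ξ) = 0 := by
  refine sum_involution (fun ξ _ => Function.update ξ s (!ξ s)) (fun ξ _ => ?_)
    (fun ξ _ _ h => ?_) (fun _ _ => mem_univ _) fun ξ _ => ?_
  · rw [hφ, ← mul_prod_erase _ _ (mem_univ s),
      ← mul_prod_erase _ (fun r => w r (Function.update ξ s (!ξ s) r)) (mem_univ s)]
    rw [prod_congr rfl fun r hr =>
      show w r (Function.update ξ s (!ξ s) r) = w r (ξ r) by
        rw [Function.update_of_ne (ne_of_mem_erase hr)]]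
    simp only [Function.update_self]
    cases ξ s
    · simp only [Bool.false_eq_true, if_false, Bool.not_false, if_true]
      linear_combination (-(∏ r ∈ univ.erase s, w r (ξ r)) * φ ξ) * hθ
    · simp only [Bool.false_eq_true, if_false, Bool.not_true, if_true]
      linear_combination (-(∏ r ∈ univ.erase s, w r (ξ r)) * φ ξ) * hθ
  · have := congrFun h s
    simp at this
  · simp

end Crest.Agent.N337.Rep
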