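import Crest.Agent.N337.Rep.Cyc

/-!
# Row 337, RepStmt, part 5: the environment representation
-/

set_option autoImplicit false
set_option linter.unusedSectionVars false

namespace Crest.Agent.N337.Rep

open Finset Equiv Matrix Crest.Agent.N337.Slot

variable {Λ : Type} [Fintype Λ] [DecidableEq Λ] {T : ℕ} [NeZero T]
variable (ex ey : Fin T → Λ) (p ζ : Fin T → ℝ)

/-- environments. -/
abbrev Env (T : ℕ) (Λ : Type) : Type := Fin T × Λ → Option Bool

/-- joint weight of the bits and the red paths. -/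
def Wt (ξ : Fin T → Bool) (ω : Env T Λ) : ℝ :=
  if ∀ v, ω (Sg ex ey ξ v) = ω v then Pw p ξ * zr (fun v => ζ v.1) ω else 0
/-- `1 - N` for fixed bits. -/
abbrev Mx (ξ : Fin T → Bool) (ω : Env T Λ) : Matrix (Fin T × Λ) (Fin T × Λ) ℝ :=
  gm (Sg ex ey ξ) (fun v => ζ v.1) ω
def nu (ω : Env T Λ) : ℝ := ∑ ξ, Wt ex ey p ζ ξ ω * (Mx ex ey ζ ξ ω).det
def Hn (ω : Env T Λ) (v u : Fin T × Λ) : ℝ :=
  ∑ ξ, Wt ex ey p ζ ξ ω *
    if ω v = none ∧ ω u = none then (Mx ex ey ζ ξ ω).adjugate v u else 0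
noncomputable def Gr (ω : Env T Λ) (v u : Fin T × Λ) : ℝ := Hn ex ey p ζ ω v u / nu ex ey p ζ ω
def Rd (ω : Env T Λ) (s : Fin T) : Finset Λ := univ.filter fun x => ω (s, x) ≠ none
/-- weight of one bit given the environment. -/
def wc (ω : Env T Λ) (s : Fin T) (b : Bool) : ℝ :=
  if ∀ x, ω (s + 1, sg (ex s) (ey s) b x) = ω (s, x) then wb (p s) b else 0
noncomputable def th (ω : Env T Λ) (s : Fin T) : ℝ :=
  wc ex ey p ω s true / (wc ex ey p ω s true + wc ex ey p ω s false)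
noncomputable def Km (ω : Env T Λ) (s : Fin T) : Matrix Λ Λ ℝ := Matrix.of fun y x =>
  if y ∈ Rd ω (s + 1) ∨ x ∈ Rd ω s then 0 else
    (1 - th ex ey p ω s) * (if y = x then 1 else 0) +
      th ex ey p ω s * (if y = swap (ex s) (ey s) x then 1 else 0)

lemma mem_Rd {ω : Env T Λ} {s : Fin T} {x : Λ} : x ∈ Rd ω s ↔ ω (s, x) ≠ none := by simp [Rd]

lemma Wt_eq (ξ : Fin T → Bool) (ω : Env T Λ) :
    Wt ex ey p ζ ξ ω = zr (fun v => ζ v.1) ω * ∏ s, wc ex ey p ω s (ξ s) := by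
  simp only [Wt, wc, prod_ite_zero, mem_univ, true_imp_iff, Prod.forall, Sg_apply, Pw]
  split_ifs
  · rw [mul_comm]
  · rw [mul_zero]

variable {p ζ}

lemma Wt_nonneg (hp : ∀ s, 0 ≤ p s ∧ p s ≤ 1) (hζ : ∀ s, 0 ≤ ζ s) (ξ : Fin T → Bool)
    (ω : Env T Λ) : 0 ≤ Wt ex ey p ζ ξ ω := by
  unfold Wt; split_ifs
  · exact mul_nonneg (Pw_nonneg hp ξ) (zr_nonneg (fun v => hζ _) ω)
  · exact le_rfl

lemma wc_nonneg (hp : ∀ s, 0 ≤ p s ∧ p s ≤ 1) (ω : Env T Λ) (s : Fin T) (b : Bool) :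
    0 ≤ wc ex ey p ω s b := by
  unfold wc; split_ifs
  · exact wb_nonneg (hp s) b
  · exact le_rfl

lemma th_mem (hp : ∀ s, 0 ≤ p s ∧ p s ≤ 1) (ω : Env T Λ) (s : Fin T) :
    0 ≤ th ex ey p ω s ∧ th ex ey p ω s ≤ 1 := by
  have h1 := wc_nonneg ex ey hp ω s true
  have h2 := wc_nonneg ex ey hp ω s false
  exact ⟨div_nonneg h1 (add_nonneg h1 h2), div_le_one_of_le₀ (by linarith) (add_nonneg h1 h2)⟩

lemma th_mul (hp : ∀ s, 0 ≤ p s ∧ p s ≤ 1) (ω : Env T Λ) (s : Fin T) :
    th ex ey p ω s * (wc ex ey p ω s true + wc ex ey p ω s false) = wc ex ey p ω s true := by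
  have h1 := wc_nonneg ex ey hp ω s true
  have h2 := wc_nonneg ex ey hp ω s false
  by_cases h : wc ex ey p ω s true + wc ex ey p ω s false = 0
  · rw [h, mul_zero]; linarith
  · exact div_mul_cancel₀ _ h

lemma nu_nonneg (hp : ∀ s, 0 ≤ p s ∧ p s ≤ 1) (hζ : ∀ s, 0 < ζ s ∧ ζ s ≤ 1) (ω : Env T Λ) :
    0 ≤ nu ex ey p ζ ω :=
  sum_nonneg fun ξ _ => mul_nonneg (Wt_nonneg ex ey hp (fun s => (hζ s).1.le) ξ ω)
    (det_gm_nonneg (fun v => (hζ v.1).1.le) (fun v => (hζ v.1).2) _ ω)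

lemma nu_mul_Gr (hp : ∀ s, 0 ≤ p s ∧ p s ≤ 1) (hζ : ∀ s, 0 < ζ s ∧ ζ s ≤ 1) (hz : ∏ s, ζ s < 1)
    (ω : Env T Λ) (v u : Fin T × Λ) :
    nu ex ey p ζ ω * Gr ex ey p ζ ω v u = Hn ex ey p ζ ω v u := by
  by_cases h : nu ex ey p ζ ω = 0
  · rw [h, zero_mul]
    have h2 := (sum_eq_zero_iff_of_nonneg fun ξ _ =>
      mul_nonneg (Wt_nonneg ex ey hp (fun s => (hζ s).1.le) ξ ω)
        (det_gm_nonneg (fun v => (hζ v.1).1.le) (fun v => (hζ v.1).2) _ ω)).1 h
    refine (sum_eq_zero fun ξ _ => ?_).symm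
    rw [(mul_eq_zero.1 (h2 ξ (mem_univ _))).resolve_right
      (det_gm_pos ex ey ξ (fun s => (hζ s).1.le) (fun s => (hζ s).2) hz ω).ne', zero_mul]
  · exact mul_div_cancel₀ _ h

lemma exists_compat {ω : Env T Λ} (h : 0 < nu ex ey p ζ ω) (s : Fin T) :
    ∃ b, ∀ x, ω (s + 1, sg (ex s) (ey s) b x) = ω (s, x) := by
  obtain ⟨ξ, -, hξ⟩ := exists_ne_zero_of_sum_ne_zero h.ne'
  refine ⟨ξ s, fun x => ?_⟩
  by_contra hh
  exact hξ (by rw [Wt, if_neg fun h' => hh (h' (s, x)), zero_mul])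

/-- the edge vector. -/
def ev (x y w : Λ) : ℝ := (if w = x then 1 else 0) - (if w = y then 1 else 0)

lemma ite_sg (a b : Λ) (c : Bool) (y x : Λ) : (if y = sg a b c x then (1 : ℝ) else 0) =
    (if y = x then 1 else 0) - (if c = true then 1 else 0) * (ev a b y * ev a b x) := by
  cases c
  · simp [sg]
  · simp only [sg, if_true, ev, one_mul, swap_apply_def]
    by_cases h1 : x = a
    · subst h1
      by_cases h2 : x = b
      · subst h2; simp
      · simp only [if_true, if_neg h2]; ring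
    · by_cases h2 : x = b
      · subst h2; simp only [if_true, if_neg h1]; ring
      · simp [h1, h2]

lemma Mx_apply (ξ : Fin T → Bool) (ω : Env T Λ) (t s : Fin T) (y x : Λ) :
    Mx ex ey ζ ξ ω (t, y) (s, x) = (if (t, y) = (s, x) then 1 else 0) -
      if t = s + 1 then (if y = sg (ex s) (ey s) (ξ s) x then 1 else 0) *
        (if ω (s, x) = none then ζ s else 0) else 0 := by
  simp only [Mx, gm, mat_apply, Sg_apply, Prod.mk.injEq, zg, ite_and, ite_mul, one_mul, zero_mul]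

lemma adj_rec (ξ : Fin T → Bool) (ω : Env T Λ) (s : Fin T) (y : Λ) (u : Fin T × Λ) :
    (Mx ex ey ζ ξ ω).adjugate (s + 1, y) u =
      (Mx ex ey ζ ξ ω).det * (if (s + 1, y) = u then 1 else 0) +
      ∑ x, (if y = sg (ex s) (ey s) (ξ s) x then 1 else 0) *
        (if ω (s, x) = none then ζ s else 0) * (Mx ex ey ζ ξ ω).adjugate (s, x) u := by
  have h := congrFun (congrFun (mul_adjugate (Mx ex ey ζ ξ ω)) (s + 1, y)) u
  rw [Matrix.mul_apply, Matrix.smul_apply, one_apply, smul_eq_mul, Fintype.sum_prod_type] at h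
  simp only [Mx_apply, sub_mul, sum_sub_distrib, add_left_inj] at h
  rw [← h, ← Fintype.sum_prod_type' (fun r x => (if (s + 1, y) = (r, x) then (1 : ℝ) else 0) *
    (Mx ex ey ζ ξ ω).adjugate (r, x) u), sum_comm]
  simp only [Prod.mk.eta, ite_mul, one_mul, zero_mul, sum_ite_eq, mem_univ, if_true]
  ring

lemma phi_indep (ω : Env T Λ) (s : Fin T) (u : Fin T × Λ) (ξ : Fin T → Bool) (b : Bool) :
    ∑ x, ev (ex s) (ey s) x * (if ω (s, x) = none then ζ s else 0) *
        (Mx ex ey ζ (Function.update ξ s b) ω).adjugate (s, x) u =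
      ∑ x, ev (ex s) (ey s) x * (if ω (s, x) = none then ζ s else 0) *
        (Mx ex ey ζ ξ ω).adjugate (s, x) u := by
  have h := sum_adj_eq (A := Mx ex ey ζ ξ ω) (A' := Mx ex ey ζ (Function.update ξ s b) ω)
    (w := fun i => if i.1 = s + 1 then
      ((if b = true then 1 else 0) - (if ξ s = true then 1 else 0)) * ev (ex s) (ey s) i.2 else 0)
    (e := fun j => if j.1 = s then
      ev (ex s) (ey s) j.2 * (if ω (s, j.2) = none then ζ s else 0) else 0) ?_ u
  · simp only [Fintype.sum_prod_type] at h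
    rw [sum_comm, sum_comm (s := univ (α := Fin T))] at h
    have e : ∀ (r : Fin T) (a c : ℝ), (if r = s then a else 0) * c = if r = s then a * c else 0 :=
      fun r a c => by split_ifs <;> simp
    simpa only [e, sum_ite_eq', mem_univ, if_true] using h
  · rintro ⟨t, y⟩ ⟨r, x⟩
    simp only [Mx_apply]
    by_cases hr : r = s
    · subst hr
      simp only [Function.update_self, if_true, ite_sg]
      split_ifs <;> ring
    · simp [hr]

lemma Hn_rec (hp : ∀ s, 0 ≤ p s ∧ p s ≤ 1) (ω : Env T Λ) (s : Fin T) (y : Λ) (u : Fin T × Λ) :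
    Hn ex ey p ζ ω (s + 1, y) u =
      nu ex ey p ζ ω * (if (s + 1, y) = u ∧ y ∉ Rd ω (s + 1) then 1 else 0) +
        ζ s * ∑ x, Km ex ey p ω s y x * Hn ex ey p ζ ω (s, x) u := by
  by_cases hy : ω (s + 1, y) = none
  swap
  · simp [Hn, hy, Km, mem_Rd]
  by_cases hu : ω u = none
  swap
  · have : (s + 1, y) ≠ u := fun h => hu (h ▸ hy)
    simp [Hn, hu, this]
  have h0 := sum_bit (wc ex ey p ω) s _ (th_mul ex ey hp ω s)
    (fun ξ => ∑ x, ev (ex s) (ey s) x * (if ω (s, x) = none then ζ s else 0) *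
      (Mx ex ey ζ ξ ω).adjugate (s, x) u) (phi_indep ex ey ω s u)
  have hK : ∀ x, ζ s * (Km ex ey p ω s y x * Hn ex ey p ζ ω (s, x) u) =
      ∑ ξ, Wt ex ey p ζ ξ ω * (((if y = x then 1 else 0) -
        th ex ey p ω s * (ev (ex s) (ey s) y * ev (ex s) (ey s) x)) *
        (if ω (s, x) = none then ζ s else 0) * (Mx ex ey ζ ξ ω).adjugate (s, x) u) := by
    intro x
    have e := ite_sg (ex s) (ey s) true y x
    simp only [sg, if_true, one_mul] at e
    by_cases hx : ω (s, x) = none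
    · simp only [Km, Hn, of_apply, mem_Rd, hy, hx, hu, ne_eq, not_true, or_self, if_false, and_self,
        if_true, e, mul_sum]
      exact sum_congr rfl fun ξ _ => by ring
    · simp [Km, mem_Rd, hx]
  rw [mul_sum]
  simp only [hK]
  rw [sum_comm, nu, sum_mul, ← sum_add_distrib, Hn, ← sub_eq_zero, ← sum_sub_distrib]
  refine Eq.trans ?_ (mul_eq_zero_of_right
    (-(zr (fun v : Fin T × Λ => ζ v.1) ω * ev (ex s) (ey s) y)) h0)
  rw [mul_sum]
  refine sum_congr rfl fun ξ _ => ?_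
  rw [if_pos ⟨hy, hu⟩, adj_rec, Wt_eq, ← mul_sum]
  simp only [ite_sg, mem_Rd, hy, ne_eq, not_true, not_false_iff, and_true, sub_mul,
    sum_sub_distrib, mul_assoc, ← mul_sum]
  ring

lemma Km_nonneg (hp : ∀ s, 0 ≤ p s ∧ p s ≤ 1) (ω : Env T Λ) (s : Fin T) (y x : Λ) :
    0 ≤ Km ex ey p ω s y x := by
  have h := th_mem ex ey hp ω s
  simp only [Km, of_apply]
  split_ifs <;> linarith [h.1, h.2]

lemma Km_mulVec (ω : Env T Λ) (s : Fin T) (f : Λ → ℝ) (y : Λ) :
    ∑ x, Km ex ey p ω s y x * f x = if y ∈ Rd ω (s + 1) then 0 else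
      (1 - th ex ey p ω s) * (if y ∈ Rd ω s then 0 else f y) + th ex ey p ω s *
        (if swap (ex s) (ey s) y ∈ Rd ω s then 0 else f (swap (ex s) (ey s) y)) := by
  by_cases hy : y ∈ Rd ω (s + 1)
  · simp [Km, hy]
  · have e : ∀ x, y = swap (ex s) (ey s) x ↔ swap (ex s) (ey s) y = x := fun x => by
      rw [swap_apply_eq_iff]
    have e2 : ∀ x, Km ex ey p ω s y x * f x =
        (if y = x then (1 - th ex ey p ω s) * (if x ∈ Rd ω s then 0 else f x) else 0) +
        (if swap (ex s) (ey s) y = x then th ex ey p ω s * (if x ∈ Rd ω s then 0 else f x)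
          else 0) := by
      intro x
      simp only [Km, of_apply, hy, false_or, e]
      split_ifs <;> ring
    simp only [e2, sum_add_distrib, sum_ite_eq, mem_univ, if_true, if_neg hy]

lemma Km_row (hp : ∀ s, 0 ≤ p s ∧ p s ≤ 1) (ω : Env T Λ) (s : Fin T) (y : Λ) :
    ∑ x, Km ex ey p ω s y x ≤ 1 := by
  have h := th_mem ex ey hp ω s
  have := Km_mulVec ex ey (p := p) ω s (fun _ => 1) y
  simp only [mul_one] at this
  rw [this]
  split_ifs <;> linarith [h.1, h.2]

lemma Km_contr (hp : ∀ s, 0 ≤ p s ∧ p s ≤ 1) (ω : Env T Λ) (s : Fin T) (f : Λ → ℝ) :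
    ∑ y, ((Km ex ey p ω s).mulVec f y) ^ 2 ≤ ∑ x, f x ^ 2 := by
  obtain ⟨h0, h1⟩ := th_mem ex ey hp ω s
  calc ∑ y, ((Km ex ey p ω s).mulVec f y) ^ 2
      ≤ ∑ y, ((1 - th ex ey p ω s) * f y ^ 2 + th ex ey p ω s * f (swap (ex s) (ey s) y) ^ 2) := by
        refine sum_le_sum fun y _ => ?_
        rw [mulVec, dotProduct, Km_mulVec]
        generalize th ex ey p ω s = θ at *
        have h2 : 0 ≤ θ * (1 - θ) := mul_nonneg h0 (by linarith)
        have h3 : 0 ≤ 1 - θ := by linarith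
        have h4 : 0 ≤ (1 - θ) * f y ^ 2 + θ * f (swap (ex s) (ey s) y) ^ 2 := by positivity
        split_ifs
        · simpa using h4
        · simpa using h4
        · nlinarith [mul_nonneg h3 (sq_nonneg (f y)),
            mul_nonneg h2 (sq_nonneg (f (swap (ex s) (ey s) y)))]
        · nlinarith [mul_nonneg h0 (sq_nonneg (f (swap (ex s) (ey s) y))),
            mul_nonneg h2 (sq_nonneg (f y))]
        · nlinarith [mul_nonneg h2 (sq_nonneg (f y - f (swap (ex s) (ey s) y)))]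
    _ = ∑ x, f x ^ 2 := by
        rw [sum_add_distrib, ← mul_sum, ← mul_sum,
          Equiv.sum_comp (swap (ex s) (ey s)) fun y => f y ^ 2]
        ring

lemma Km_eq {ω : Env T Λ} (h : 0 < nu ex ey p ζ ω) (s : Fin T) (hR : Rd ω (s + 1) = Rd ω s) :
    Km ex ey p ω s = if ex s ∉ Rd ω s ∧ ey s ∉ Rd ω s then kstep (Rd ω s) (ex s) (ey s) (p s)
      else kstep (Rd ω s) (ex s) (ey s) 0 := by
  have hR' : ∀ x, ω (s + 1, x) = none ↔ ω (s, x) = none := fun x => by
    rw [← not_iff_not]; exact mem_Rd.symm.trans (hR ▸ mem_Rd)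
  split_ifs with hg
  · obtain ⟨b, hb⟩ := exists_compat ex ey h s
    have h1 : ω (s, ex s) = none := by simpa [mem_Rd] using hg.1
    have h2 : ω (s, ey s) = none := by simpa [mem_Rd] using hg.2
    have h3 : ∀ c x, ω (s + 1, sg (ex s) (ey s) c x) = ω (s, x) := by
      intro c x
      by_cases e1 : x = ex s
      · rw [e1, h1, hR']; cases c <;> simp [sg, h1, h2]
      · by_cases e2 : x = ey s
        · rw [e2, h2, hR']; cases c <;> simp [sg, h1, h2]
        · have e3 : ∀ c, sg (ex s) (ey s) c x = x := fun c => by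
            cases c <;> simp [sg, swap_apply_of_ne_of_ne e1 e2]
          rw [← hb x, e3, e3]
    have h4 : th ex ey p ω s = p s := by simp [th, wc, h3, wb]
    ext y x
    simp only [Km, kstep, of_apply, hR, h4]
  · ext y x
    simp only [Km, kstep, of_apply, hR]
    by_cases hyx : y ∈ Rd ω s ∨ x ∈ Rd ω s
    · rw [if_pos hyx, if_pos hyx]
    rw [if_neg hyx, if_neg hyx]
    by_cases hθ : th ex ey p ω s = 0
    · rw [hθ]
    have h1 : ∀ x, ω (s + 1, swap (ex s) (ey s) x) = ω (s, x) := by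
      by_contra hh
      exact hθ (by rw [th, wc, if_neg (by simpa [sg] using hh), zero_div])
    have hx : ω (s, x) = none := by simpa [mem_Rd] using fun h' => hyx (Or.inr h')
    have hx' : ω (s, swap (ex s) (ey s) x) = none := by rw [← hR', h1, hx]
    have e1 : x ≠ ex s := by
      rintro rfl
      exact hg ⟨by simp [mem_Rd, hx], by simpa [mem_Rd] using hx'⟩
    have e2 : x ≠ ey s := by
      rintro rfl
      exact hg ⟨by simpa [mem_Rd] using hx', by simp [mem_Rd, hx]⟩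
    rw [swap_apply_of_ne_of_ne e1 e2]
    ring

lemma sum_nu_mul (φ : Env T Λ → ℝ) : ∑ ω, nu ex ey p ζ ω * φ ω =
    ∑ ξ, Pw p ξ * ∑ ω : Env T Λ, if ∀ v, ω (Sg ex ey ξ v) = ω v then
      zr (fun v => ζ v.1) ω * (Mx ex ey ζ ξ ω).det * φ ω else 0 := by
  simp only [nu, sum_mul, mul_sum]
  rw [sum_comm]
  refine sum_congr rfl fun ξ _ => sum_congr rfl fun ω _ => ?_
  unfold Wt; split_ifs <;> ring

lemma sum_Hn_mul (v u : Fin T × Λ) (φ : Env T Λ → ℝ) : ∑ ω, Hn ex ey p ζ ω v u * φ ω =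
    ∑ ξ, Pw p ξ * ∑ ω : Env T Λ, if ∀ v, ω (Sg ex ey ξ v) = ω v then
      zr (fun v => ζ v.1) ω *
        (if ω v = none ∧ ω u = none then (Mx ex ey ζ ξ ω).adjugate v u else 0) * φ ω else 0 := by
  simp only [Hn, sum_mul, mul_sum]
  rw [sum_comm]
  refine sum_congr rfl fun ξ _ => sum_congr rfl fun ω _ => ?_
  unfold Wt; split_ifs <;> ring

lemma sub_Rd {ω : Env T Λ} {s : Fin T} {A : Finset Λ} :
    A ⊆ Rd ω s ↔ ∀ w ∈ A.image (fun a => (s, a)), ω w ≠ none := by
  simp only [forall_mem_image, subset_iff, mem_Rd]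

lemma card_img (s : Fin T) (A : Finset Λ) : (A.image (fun a => (s, a))).card = A.card :=
  card_image_of_injective _ fun _ _ h => (Prod.mk.inj h).2

theorem rep : RepStmt := by
  intro Λ _ _ T _ ex ey p ζ _ hp hζ hz Y
  have hζ0 : ∀ s, 0 ≤ ζ s := fun s => (hζ s).1.le
  have hz0 : ∀ v : Fin T × Λ, 0 ≤ ζ v.1 := fun v => hζ0 _
  have hG := nu_mul_Gr ex ey hp hζ hz
  have hamp : amp Y (fun _ => 1) = ∑ ξ, Pw p ξ * ∑ D : Fin T × Λ → Bool,
      if ∀ v, D (Sg ex ey ξ v) = D v then zd (fun v => ζ v.1) D else 0 := by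
    simp only [Y, amp_eq, ins0_eq, mul_ite, mul_one, mul_zero]
  have hred : ∀ ω v u, v.2 ∈ Rd ω v.1 ∨ u.2 ∈ Rd ω u.1 → Gr ex ey p ζ ω v u = 0 := by
    intro ω v u h
    have : ¬(ω v = none ∧ ω u = none) := by
      simp only [mem_Rd] at h; tauto
    simp [Gr, Hn, this]
  have hind : ∀ ω v u (P : Prop) [Decidable P],
      nu ex ey p ζ ω * (if P then Gr ex ey p ζ ω v u else 0) =
        Hn ex ey p ζ ω v u * (if P then 1 else 0) := by
    intro ω v u P _
    split_ifs
    · rw [hG, mul_one]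
    · rw [mul_zero, mul_zero]
  have hne : ∀ {s t : Fin T} (x y : Λ), s ≠ t → ((s, x) : Fin T × Λ) ≠ (t, y) :=
    fun x y h e => h (congrArg Prod.fst e)
  refine ⟨Env T Λ, inferInstance, nu ex ey p ζ, Rd, Km ex ey p, Gr ex ey p ζ,
    nu_nonneg ex ey hp hζ, ?_, ?_, fun ω hω => ?_, fun s t x y hst => ?_,
    fun s t x y A hst => ?_, fun s t x y A hst => ?_, fun s A => ?_, fun s => ?_⟩
  · have := sum_nu_mul ex ey (p := p) (ζ := ζ) fun _ => 1
    simp only [mul_one] at this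
    rw [this, hamp]
    exact sum_congr rfl fun ξ _ => by rw [sum0_eq]
  · rw [hamp, ← sum_Pw p]
    exact sum_le_sum fun ξ _ => le_mul_of_one_le_right (Pw_nonneg hp ξ) (one_le_sumD hz0 _)
  · have hrec : ∀ s y u, Gr ex ey p ζ ω (s + 1, y) u =
        (if (s + 1, y) = u ∧ y ∉ Rd ω (s + 1) then 1 else 0) +
          ζ s * ∑ x, Km ex ey p ω s y x * Gr ex ey p ζ ω (s, x) u := by
      intro s y u
      simp only [Gr, ← mul_div_assoc, ← sum_div]
      rw [Hn_rec ex ey hp, add_div, mul_div_cancel_left₀ _ hω.ne']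
    refine ⟨fun v u => ⟨?_, ?_⟩, hred ω, hrec, Km_contr ex ey hp ω, Km_eq ex ey hω⟩
    · have := max_principle hζ0 (fun s => (hζ s).2) hz (Km ex ey p ω) (Km_nonneg ex ey hp ω)
        (Km_row ex ey hp ω) (fun v => -Gr ex ey p ζ ω v u) 0 le_rfl (fun s y => ?_) v
      · simpa using this
      · rw [hrec]
        simp only [mul_neg, sum_neg_distrib, ite_self]
        split_ifs <;> linarith
    · refine max_principle hζ0 (fun s => (hζ s).2) hz (Km ex ey p ω) (Km_nonneg ex ey hp ω)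
        (Km_row ex ey hp ω) (fun v => Gr ex ey p ζ ω v u) u.1 zero_le_one (fun s y => ?_) v
      rw [hrec]
      gcongr
      split_ifs with h1 h2
      · exact le_rfl
      · exact (h2 (congrArg Prod.fst h1.1)).elim
      · exact zero_le_one
      · exact le_rfl
  · have := sum_Hn_mul ex ey (p := p) (ζ := ζ) (t, y) (s, x) fun _ => 1
    simp only [mul_one] at this
    simp only [hG, this, Y, amp_eq, ins2_eq hst]
    refine sum_congr rfl fun ξ _ => ?_
    rw [sum1_eq _ _ (hne x y hst)]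
    simp only [mul_ite, mul_zero, mul_one]
  · by_cases hx : x ∈ A
    · rw [sum_eq_zero fun ω _ => ?_]
      · refine mul_nonneg (by positivity) (amp_nonneg ex ey hp hζ0 fun r σ τ => ?_)
        unfold ins2
        split_ifs
        · rw [nb, mul_diagonal, cr_apply]; split_ifs <;> simp
        · rw [an_apply]; split_ifs <;> simp
        · rw [one_apply]; split_ifs <;> simp
      · split_ifs with h
        · rw [hred ω _ _ (Or.inr (h hx)), mul_zero]
        · rw [mul_zero]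
    · simp only [hind, sub_Rd]
      rw [sum_Hn_mul, amp_eq, mul_sum]
      refine sum_le_sum fun ξ _ => ?_
      rw [mul_left_comm]
      refine mul_le_mul_of_nonneg_left ?_ (Pw_nonneg hp ξ)
      refine (sum1_le hz0 _ (hne x y hst) _).trans_eq ?_
      simp only [card_img, ins2_eq_l hst x y _ _ hx, mul_ite, mul_zero, mul_one]
  · simp only [hind, sub_Rd]
    rw [sum_Hn_mul, amp_eq, mul_sum]
    refine sum_le_sum fun ξ _ => ?_
    rw [mul_left_comm]
    refine mul_le_mul_of_nonneg_left ?_ (Pw_nonneg hp ξ)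
    refine (sum1_le hz0 _ (hne x y hst) _).trans_eq ?_
    simp only [card_img, ins2_eq_r hst x y, mul_ite, mul_zero, mul_one]
  · simp only [sub_Rd]
    rw [sum_nu_mul, amp_eq, mul_sum]
    refine sum_le_sum fun ξ _ => ?_
    rw [mul_left_comm]
    refine mul_le_mul_of_nonneg_left ?_ (Pw_nonneg hp ξ)
    refine (sum0_le hz0 _ _).trans_eq ?_
    simp only [card_img, ins1_eq, mul_ite, mul_zero, mul_one]
  · rw [sum_nu_mul, ← sum_Pw_true p s, mul_sum]
    refine sum_le_sum fun ξ _ => ?_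
    rw [mul_left_comm]
    refine mul_le_mul_of_nonneg_left ?_ (Pw_nonneg hp ξ)
    by_cases hξ : ξ s = true
    · rw [if_pos hξ, mul_one]
      calc _ ≤ ∑ ω : Env T Λ, if ∀ v, ω (Sg ex ey ξ v) = ω v then
            zr (fun v => ζ v.1) ω * (Mx ex ey ζ ξ ω).det else 0 := by
            refine sum_le_sum fun ω _ => ?_
            have := mul_nonneg (zr_nonneg hz0 ω)
              (det_gm_nonneg hz0 (fun v => (hζ v.1).2) (Sg ex ey ξ) ω)
            split_ifs
            · rw [mul_zero]; exact this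
            · rw [mul_one]
            · exact le_rfl
        _ ≤ 2 ^ Fintype.card (Orb (Sg ex ey ξ)) := by
            rw [sum0_eq]; exact sumD_le hz0 (fun v => (hζ v.1).2) _
        _ ≤ _ := pow_le_pow_right₀ one_le_two (card_orb_le ex ey ξ)
    · rw [if_neg hξ, mul_zero]
      refine (sum_eq_zero fun ω _ => ?_).le
      split_ifs with h1 h2
      · rw [mul_zero]
      · refine (h2 (Finset.ext fun x => ?_)).elim
        have := h1 (s, x)
        rw [Sg_apply, sg, if_neg hξ] at this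
        rw [mem_Rd, mem_Rd, ← this]; rfl
      · rfl

end Crest.Agent.N337.Rep
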