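import Crest.Agent.N337.Rep.Sum
import Crest.Agent.N337.Slot.Defs

/-!
# Row 337, RepStmt, part 3: path expansion of the cyclic amplitude
-/

set_option autoImplicit false
set_option linter.unusedSectionVars false

namespace Crest.Agent.N337.Rep

open Finset Equiv Matrix Crest.Agent.N337.Slot

section trace
variable {ι : Type} [Fintype ι] [DecidableEq ι]

lemma prod_ofFn_apply (n : ℕ) : ∀ (A : Fin (n + 1) → Matrix ι ι ℝ) (i j : ι),
    (List.ofFn A).reverse.prod i j = ∑ η : Fin n → ι, ∏ s : Fin (n + 1),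
      A s ((Fin.snoc η i : Fin (n + 1) → ι) s) ((Fin.cons j η : Fin (n + 1) → ι) s) := by
  induction n with
  | zero =>
    intro A i j
    simp [Fin.snoc]
  | succ n ih =>
    intro A i j
    rw [List.ofFn_succ, List.reverse_cons, List.prod_append, List.prod_singleton, Matrix.mul_apply,
      ← (Fin.consEquiv fun _ : Fin (n + 1) => ι).sum_comp, Fintype.sum_prod_type]
    refine sum_congr rfl fun k _ => ?_
    rw [ih, sum_mul]
    refine sum_congr rfl fun η _ => ?_
    rw [Fin.prod_univ_succ (n := n + 1), mul_comm]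
    have e : (Fin.snoc ((Fin.consEquiv fun _ : Fin (n + 1) => ι) (k, η)) i : Fin (n + 2) → ι) =
        Fin.cons k (Fin.snoc η i) := (Fin.cons_snoc_eq_snoc_cons k η i).symm
    rw [e]
    simp only [Fin.consEquiv_apply, Fin.cons_zero, Fin.cons_succ]

lemma trace_ofFn {T : ℕ} [NeZero T] (A : Fin T → Matrix ι ι ℝ) :
    ((List.ofFn A).reverse.prod).trace = ∑ η : Fin T → ι, ∏ s, A s (η (s + 1)) (η s) := by
  obtain ⟨n, rfl⟩ : ∃ n, T = n + 1 := Nat.exists_eq_succ_of_ne_zero (NeZero.ne T)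
  rw [Matrix.trace, ← (Fin.consEquiv fun _ : Fin (n + 1) => ι).sum_comp, Fintype.sum_prod_type]
  refine sum_congr rfl fun j _ => ?_
  rw [Matrix.diag_apply, prod_ofFn_apply]
  refine sum_congr rfl fun η _ => prod_congr rfl fun s _ => ?_
  simp only [Fin.consEquiv_apply]
  congr 1
  refine Fin.lastCases ?_ (fun t => ?_) s
  · simp
  · simp

end trace

variable {Λ : Type} [Fintype Λ] [DecidableEq Λ] {T : ℕ} [NeZero T]

/-- the slot permutation of one step. -/
def sg (x y : Λ) (b : Bool) : Perm Λ := if b = true then swap x y else 1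

lemma sg_sg (x y : Λ) (b : Bool) (w : Λ) : sg x y b (sg x y b w) = w := by
  cases b <;> simp [sg]

/-- the space-time permutation. -/
def Sg (ex ey : Fin T → Λ) (ξ : Fin T → Bool) : Perm (Fin T × Λ) :=
  Equiv.prodShear (Equiv.addRight 1) fun s => sg (ex s) (ey s) (ξ s)

lemma Sg_apply (ex ey : Fin T → Λ) (ξ : Fin T → Bool) (s : Fin T) (x : Λ) :
    Sg ex ey ξ (s, x) = (s + 1, sg (ex s) (ey s) (ξ s) x) := rfl

/-- weight of a bit. -/
def wb (p : ℝ) (b : Bool) : ℝ := if b = true then p else 1 - p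

/-- weight of the bits. -/
def Pw (p : Fin T → ℝ) (ξ : Fin T → Bool) : ℝ := ∏ s, wb (p s) (ξ s)

lemma cnt_comp (σ : Λ → Bool) (e : Perm Λ) : cnt (σ ∘ e) = cnt σ := by
  unfold cnt
  refine card_bij (fun x _ => e x) (fun x hx => by simpa using hx)
    (fun x _ y _ h => e.injective h) fun y hy => ⟨e.symm y, by simpa using hy, by simp⟩

lemma Y_apply (ζ : ℝ) (x y : Λ) (p : ℝ) (η D : Λ → Bool) :
    (fug ζ * step x y p : BOp Λ) η D =
      ∑ b : Bool, wb p b * ζ ^ cnt D * (if η = D ∘ sg x y b then 1 else 0) := by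
  rw [fug, diagonal_mul, step, Fintype.sum_bool]
  simp only [Matrix.add_apply, Matrix.smul_apply, smul_eq_mul, swp, of_apply, one_apply, wb, sg,
    if_true, Bool.false_eq_true, if_false, Perm.coe_one, Function.comp_id]
  by_cases h1 : η = D ∘ swap x y
  · have : cnt η = cnt D := by rw [h1, cnt_comp]
    rw [this]; ring
  · by_cases h2 : η = D
    · rw [h2]; ring
    · simp [h1, h2]

lemma pow_cnt (ζ : ℝ) (D : Λ → Bool) : ζ ^ cnt D = ∏ x, if D x = true then ζ else 1 := by
  rw [cnt, ← prod_filter, prod_const]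

theorem amp_eq (ex ey : Fin T → Λ) (p ζ : Fin T → ℝ) (O : Fin T → BOp Λ) :
    amp (fun s => fug (ζ s) * step (ex s) (ey s) (p s)) O =
      ∑ ξ : Fin T → Bool, Pw p ξ * ∑ D : Fin T × Λ → Bool, zd (fun v => ζ v.1) D *
        ∏ s, O s (fun x => D (s, x)) (fun x => D ((Sg ex ey ξ).symm (s, x))) := by
  rw [amp, trace_ofFn]
  have h1 : ∀ η : Fin T → Λ → Bool,
      ∏ s, (fug (ζ s) * step (ex s) (ey s) (p s) * O s : BOp Λ) (η (s + 1)) (η s) =
      ∑ ξ : Fin T → Bool, ∑ D : Fin T → Λ → Bool, ∏ s, (wb (p s) (ξ s) * ζ s ^ cnt (D s) *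
        (if η (s + 1) = D s ∘ sg (ex s) (ey s) (ξ s) then 1 else 0) * O s (D s) (η s)) := by
    intro η
    have e1 := fun ξ : Fin T → Bool => (Fintype.prod_sum fun (s : Fin T) (D : Λ → Bool) =>
      wb (p s) (ξ s) * ζ s ^ cnt D *
        (if η (s + 1) = D ∘ sg (ex s) (ey s) (ξ s) then 1 else 0) * O s D (η s)).symm
    have e2 := (Fintype.prod_sum fun (s : Fin T) (b : Bool) => ∑ D : Λ → Bool,
      wb (p s) b * ζ s ^ cnt D *
        (if η (s + 1) = D ∘ sg (ex s) (ey s) b then 1 else 0) * O s D (η s)).symm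
    simp only [e1]
    rw [e2]
    refine prod_congr rfl fun s _ => ?_
    rw [Matrix.mul_apply, sum_comm]
    exact sum_congr rfl fun D _ => by rw [Y_apply, sum_mul]
  simp only [h1]
  rw [sum_comm]
  refine sum_congr rfl fun ξ _ => ?_
  rw [sum_comm, mul_sum, ← (Equiv.curry (Fin T) Λ Bool).sum_comp]
  refine sum_congr rfl fun D _ => ?_
  simp only [prod_mul_distrib, prod_boole, mem_univ, true_imp_iff]
  have h2 : ∀ η : Fin T → Λ → Bool,
      (∀ s, η (s + 1) = (Equiv.curry (Fin T) Λ Bool) D s ∘ sg (ex s) (ey s) (ξ s)) ↔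
      η = fun s x => D ((Sg ex ey ξ).symm (s, x)) := by
    intro η
    have h3 : ∀ s x, (Sg ex ey ξ).symm (s + 1, x) = (s, sg (ex s) (ey s) (ξ s) x) := fun s x => by
      rw [Equiv.symm_apply_eq, Sg_apply, sg_sg]
    constructor
    · intro h
      funext s x
      obtain ⟨r, rfl⟩ : ∃ r, s = r + 1 := ⟨s - 1, by simp⟩
      rw [h, h3]; rfl
    · rintro rfl s
      funext x
      simp only [h3]; rfl
  simp only [h2, mul_ite, mul_one, mul_zero, ite_mul, zero_mul, sum_ite_eq', mem_univ, if_true]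
  rw [Pw, zd, Fintype.prod_prod_type, mul_assoc]
  simp only [pow_cnt]; rfl

/-! ### the insertions -/

lemma prod_one_apply (D E : Fin T × Λ → Bool) (U : Finset (Fin T)) :
    ∏ s ∈ U, (1 : BOp Λ) (fun x => D (s, x)) (fun x => E (s, x)) =
      if ∀ w : Fin T × Λ, w.1 ∈ U → D w = E w then 1 else 0 := by
  simp only [one_apply, prod_boole, funext_iff, Prod.forall]
  congr 1
  exact propext ⟨fun h s x hs => h s hs x, fun h s hs x => h s x hs⟩

lemma inv_iff {S κ : Type} (π τ : Perm S) (D : S → κ) :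
    (∀ w, D (τ w) = D (π.symm w)) ↔ ∀ w, D ((τ * π) w) = D w :=
  ⟨fun h w => by rw [Perm.mul_apply, h, symm_apply_apply],
    fun h w => by rw [← h (π.symm w), Perm.mul_apply, apply_symm_apply]⟩

lemma inv_iff' {S κ : Type} (π : Perm S) (D : S → κ) :
    (∀ w, D w = D (π.symm w)) ↔ ∀ w, D (π w) = D w := by
  simpa using inv_iff π 1 D

lemma ins0_eq (π : Perm (Fin T × Λ)) (D : Fin T × Λ → Bool) :
    ∏ s, (1 : BOp Λ) (fun x => D (s, x)) (fun x => D (π.symm (s, x))) =
      if ∀ w, D (π w) = D w then 1 else 0 := by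
  rw [prod_one_apply D fun w => D (π.symm w)]
  simp only [mem_univ, true_imp_iff, inv_iff']

lemma ins1_eq (π : Perm (Fin T × Λ)) (D : Fin T × Λ → Bool) (s : Fin T) (A : Finset Λ) :
    ∏ r, ins1 s (nb A) r (fun x => D (r, x)) (fun x => D (π.symm (r, x))) =
      if ∀ w, D (π w) = D w then
        (if ∀ w ∈ A.image (fun x => (s, x)), D w = true then 1 else 0) else 0 := by
  have h : ∀ r, ins1 s (nb A) r (fun x => D (r, x)) (fun x => D (π.symm (r, x))) =
      (1 : BOp Λ) (fun x => D (r, x)) (fun x => D (π.symm (r, x))) *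
        if r = s then (if ∀ w ∈ A.image (fun x => (s, x)), D w = true then 1 else 0) else 1 := by
    intro r
    unfold ins1
    split_ifs with h1 h2
    · subst h1
      rw [nb, diagonal_apply, one_apply,
        if_pos (c := ∀ x ∈ A, D (r, x) = true) (by simpa using h2), mul_one]
    · subst h1
      rw [nb, diagonal_apply, if_neg (c := ∀ x ∈ A, D (r, x) = true) (by simpa using h2)]
      simp
    · rw [mul_one]
  simp only [h, prod_mul_distrib, ins0_eq, prod_ite_eq', mem_univ, if_true, ite_mul, one_mul,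
    zero_mul]

lemma prod_ins2 {s t : Fin T} (hst : s ≠ t) (A B : BOp Λ) (D E : Fin T → Λ → Bool) :
    ∏ r, ins2 s A t B r (D r) (E r) =
      A (D s) (E s) * (B (D t) (E t) *
        ∏ r ∈ (univ.erase s).erase t, (1 : BOp Λ) (D r) (E r)) := by
  rw [← mul_prod_erase _ _ (mem_univ s), ← mul_prod_erase (univ.erase s) _
    (mem_erase.2 ⟨hst.symm, mem_univ t⟩)]
  simp only [ins2, if_true, if_neg hst.symm]
  congr 2
  refine prod_congr rfl fun r hr => ?_
  rw [if_neg (ne_of_mem_erase (mem_of_mem_erase hr)), if_neg (ne_of_mem_erase hr)]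

lemma cr_apply (x : Λ) (σ τ : Λ → Bool) : cr x σ τ =
    if σ x = true ∧ τ x = false ∧ ∀ y, y ≠ x → σ y = τ y then 1 else 0 := by
  have : cr x σ τ = ∏ y, if (if y = x then σ y = true ∧ τ y = false else σ y = τ y) then 1 else 0 :=
    prod_congr rfl fun y _ => by by_cases h : y = x <;> simp [h]
  rw [this, prod_boole]
  congr 1
  refine propext ⟨fun h => ⟨?_, ?_, fun y hy => ?_⟩, fun h y _ => ?_⟩
  · exact (by simpa using h x : _ ∧ _).1
  · exact (by simpa using h x : _ ∧ _).2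
  · simpa [hy] using h y
  · by_cases hy : y = x
    · simp [hy, h.1, h.2.1]
    · simp [hy, h.2.2 y hy]

lemma an_apply (x : Λ) (σ τ : Λ → Bool) : an x σ τ =
    if σ x = false ∧ τ x = true ∧ ∀ y, y ≠ x → σ y = τ y then 1 else 0 := by
  have : an x σ τ = ∏ y, if (if y = x then σ y = false ∧ τ y = true else σ y = τ y) then 1 else 0 :=
    prod_congr rfl fun y _ => by by_cases h : y = x <;> simp [h]
  rw [this, prod_boole]
  congr 1
  refine propext ⟨fun h => ⟨?_, ?_, fun y hy => ?_⟩, fun h y _ => ?_⟩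
  · exact (by simpa using h x : _ ∧ _).1
  · exact (by simpa using h x : _ ∧ _).2
  · simpa [hy] using h y
  · by_cases hy : y = x
    · simp [hy, h.1, h.2.1]
    · simp [hy, h.2.2 y hy]

lemma ins2_eq {s t : Fin T} (hst : s ≠ t) (x y : Λ) (π : Perm (Fin T × Λ))
    (D : Fin T × Λ → Bool) :
    ∏ r, ins2 s (cr x) t (an y) r (fun a => D (r, a)) (fun a => D (π.symm (r, a))) =
      if ∀ w, D ((swap (s, x) (t, y) * π) w) = D w then
        (if D (s, x) = true ∧ D (t, y) = false then 1 else 0) else 0 := by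
  rw [prod_ins2 hst (cr x) (an y) (fun r a => D (r, a)) (fun r a => D (π.symm (r, a))),
    prod_one_apply D fun w => D (π.symm w), cr_apply, an_apply]
  simp only [← inv_iff, ite_zero_mul_ite_zero, mul_one, ← ite_and]
  have huv : ((s, x) : Fin T × Λ) ≠ (t, y) := fun h => hst (congrArg Prod.fst h)
  congr 1
  refine propext ⟨fun ⟨⟨h1, h2, h3⟩, ⟨h4, h5, h6⟩, h7⟩ => ⟨fun w => ?_, h1, h4⟩,
    fun ⟨h1, h2, h3⟩ => ⟨⟨h2, ?_, fun a ha => ?_⟩, ⟨h3, ?_, fun a ha => ?_⟩, fun w hw => ?_⟩⟩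
  · by_cases hu : w = (s, x)
    · rw [hu, swap_apply_left, h4, h2]
    · by_cases hv : w = (t, y)
      · rw [hv, swap_apply_right, h1, h5]
      · rw [swap_apply_of_ne_of_ne hu hv]
        obtain ⟨r, a⟩ := w
        by_cases hs : r = s
        · subst hs; exact h3 a fun h => hu (by rw [h])
        · by_cases ht : r = t
          · subst ht; exact h6 a fun h => hv (by rw [h])
          · exact h7 _ (by simp [hs, ht])
  · rw [← h1, swap_apply_left, h3]
  · rw [← h1, swap_apply_of_ne_of_ne (by simp [ha]) (by simp [hst])]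
  · rw [← h1, swap_apply_right, h2]
  · rw [← h1, swap_apply_of_ne_of_ne (by simp [hst.symm]) (by simp [ha])]
  · have h := mem_erase.1 hw
    rw [← h1, swap_apply_of_ne_of_ne (fun e => (mem_erase.1 h.2).1 (by rw [e]))
      (fun e => h.1 (by rw [e]))]

lemma ins2_eq_l {s t : Fin T} (hst : s ≠ t) (x y : Λ) (π : Perm (Fin T × Λ))
    (D : Fin T × Λ → Bool) {A : Finset Λ} (hx : x ∉ A) :
    ∏ r, ins2 s (cr x * nb A) t (an y) r (fun a => D (r, a)) (fun a => D (π.symm (r, a))) =
      if ∀ w, D ((swap (s, x) (t, y) * π) w) = D w then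
        (if D (s, x) = true ∧ D (t, y) = false then 1 else 0) *
          (if ∀ w ∈ A.image (fun a => (s, a)), D w = true then 1 else 0) else 0 := by
  have h := ins2_eq hst x y π D
  rw [prod_ins2 hst (cr x) (an y) (fun r a => D (r, a)) (fun r a => D (π.symm (r, a)))] at h
  rw [prod_ins2 hst (cr x * nb A) (an y) (fun r a => D (r, a)) (fun r a => D (π.symm (r, a))),
    nb, mul_diagonal, mul_right_comm, h]
  split_ifs with h1 h2 h3 h4 h5 <;> try simp
  · refine h4 fun w hw => ?_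
    obtain ⟨a, ha, rfl⟩ := mem_image.1 hw
    rw [← h3 a ha]
    beta_reduce
    rw [← (inv_iff _ _ _).2 h1,
      swap_apply_of_ne_of_ne (by rintro ⟨rfl⟩; exact hx ha) (by simp [hst])]
  · refine h3 fun a ha => ?_
    beta_reduce
    rw [← (inv_iff _ _ _).2 h1,
      swap_apply_of_ne_of_ne (by rintro ⟨rfl⟩; exact hx ha) (by simp [hst])]
    exact h5 _ (mem_image_of_mem _ ha)

lemma ins2_eq_r {s t : Fin T} (hst : s ≠ t) (x y : Λ) (π : Perm (Fin T × Λ))
    (D : Fin T × Λ → Bool) (A : Finset Λ) :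
    ∏ r, ins2 s (cr x) t (nb A * an y) r (fun a => D (r, a)) (fun a => D (π.symm (r, a))) =
      if ∀ w, D ((swap (s, x) (t, y) * π) w) = D w then
        (if D (s, x) = true ∧ D (t, y) = false then 1 else 0) *
          (if ∀ w ∈ A.image (fun a => (t, a)), D w = true then 1 else 0) else 0 := by
  have h := ins2_eq hst x y π D
  rw [prod_ins2 hst (cr x) (an y) (fun r a => D (r, a)) (fun r a => D (π.symm (r, a)))] at h
  rw [prod_ins2 hst (cr x) (nb A * an y) (fun r a => D (r, a)) (fun r a => D (π.symm (r, a))),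
    nb, diagonal_mul, mul_assoc, mul_left_comm, h]
  simp only [forall_mem_image]
  split_ifs <;> simp

lemma nb_nonneg (A : Finset Λ) (σ τ : Λ → Bool) : 0 ≤ nb A σ τ := by
  rw [nb, diagonal_apply]; split_ifs <;> simp

lemma wb_nonneg {p : ℝ} (h : 0 ≤ p ∧ p ≤ 1) (b : Bool) : 0 ≤ wb p b := by
  unfold wb; split_ifs <;> linarith [h.1, h.2]

lemma Pw_nonneg {p : Fin T → ℝ} (h : ∀ s, 0 ≤ p s ∧ p s ≤ 1) (ξ : Fin T → Bool) : 0 ≤ Pw p ξ :=
  prod_nonneg fun s _ => wb_nonneg (h s) _

lemma sum_Pw (p : Fin T → ℝ) : ∑ ξ : Fin T → Bool, Pw p ξ = 1 := by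
  have := prod_univ_sum (fun _ : Fin T => (univ : Finset Bool)) fun s b => wb (p s) b
  rw [Fintype.piFinset_univ] at this
  unfold Pw
  rw [← this]
  exact prod_eq_one fun s _ => by simp [wb]

lemma sum_Pw_true (p : Fin T → ℝ) (s : Fin T) :
    ∑ ξ : Fin T → Bool, Pw p ξ * (if ξ s = true then 1 else 0) = p s := by
  have := prod_univ_sum (fun _ : Fin T => (univ : Finset Bool))
    fun r b => wb (p r) b * if r = s then (if b = true then 1 else 0) else 1
  rw [Fintype.piFinset_univ] at this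
  simp only [prod_mul_distrib, prod_ite_eq', mem_univ, if_true] at this
  unfold Pw
  rw [← this, prod_eq_single s]
  · simp [wb]
  · intro r _ hr; simp [wb, hr]
  · simp

/-- amplitudes with nonnegative insertions are nonnegative. -/
lemma amp_nonneg (ex ey : Fin T → Λ) {p ζ : Fin T → ℝ} (hp : ∀ s, 0 ≤ p s ∧ p s ≤ 1)
    (hζ : ∀ s, 0 ≤ ζ s) {O : Fin T → BOp Λ} (hO : ∀ s σ τ, 0 ≤ O s σ τ) :
    0 ≤ amp (fun s => fug (ζ s) * step (ex s) (ey s) (p s)) O := by
  rw [amp_eq]
  refine sum_nonneg fun ξ _ => mul_nonneg (Pw_nonneg hp ξ) (sum_nonneg fun D _ =>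
    mul_nonneg (prod_nonneg fun v _ => ?_) (prod_nonneg fun s _ => hO _ _ _))
  split_ifs
  exacts [hζ _, zero_le_one]

end Crest.Agent.N337.Rep
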