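import Mathlib

/-!
# Row 337, RepStmt, part 1: orbits of a permutation and the determinant of `diag a - P_π diag b`
-/

set_option autoImplicit false
set_option linter.unusedSectionVars false

namespace Crest.Agent.N337.Rep

open Finset Equiv Matrix

variable {S : Type} [Fintype S] [DecidableEq S]

/-- orbits of `π`. -/
def Orb (π : Perm S) : Type := Quotient (Perm.SameCycle.setoid π)

noncomputable instance (π : Perm S) : DecidableEq (Orb π) := Classical.decEq _
noncomputable instance (π : Perm S) : Fintype (Orb π) := by
  unfold Orb; classical exact Fintype.ofFinite _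

/-- the orbit of a point. -/
def o (π : Perm S) (v : S) : Orb π := Quotient.mk _ v

omit [Fintype S] [DecidableEq S] in
lemma o_eq {π : Perm S} {v w : S} : o π v = o π w ↔ π.SameCycle v w := Quotient.eq

omit [Fintype S] [DecidableEq S] in
lemma o_apply (π : Perm S) (v : S) : o π (π v) = o π v :=
  o_eq.2 (Perm.sameCycle_apply_left.2 (Perm.SameCycle.refl _ _))

omit [Fintype S] [DecidableEq S] in
lemma o_pow (π : Perm S) (k : ℕ) (v : S) : o π ((π ^ k) v) = o π v :=
  o_eq.2 (Perm.sameCycle_pow_left.2 (Perm.SameCycle.refl _ _))

omit [Fintype S] [DecidableEq S] in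
lemma o_surj (π : Perm S) (g : Orb π) : ∃ v, o π v = g := Quotient.exists_rep g

/-- product of a weight over an orbit. -/
noncomputable def pr (π : Perm S) (a : S → ℝ) (g : Orb π) : ℝ :=
  ∏ v ∈ univ.filter (fun v => o π v = g), a v

lemma pr_congr {π : Perm S} {a b : S → ℝ} {g : Orb π} (h : ∀ v, o π v = g → a v = b v) :
    pr π a g = pr π b g :=
  prod_congr rfl fun v hv => h v (mem_filter.1 hv).2

lemma pr_zero {π : Perm S} {a : S → ℝ} {g : Orb π} {v : S} (hv : o π v = g) (h : a v = 0) :
    pr π a g = 0 :=
  prod_eq_zero (mem_filter.2 ⟨mem_univ _, hv⟩) h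

lemma pr_one {π : Perm S} {a : S → ℝ} {g : Orb π} (h : ∀ v, o π v = g → a v = 1) :
    pr π a g = 1 :=
  prod_eq_one fun v hv => h v (mem_filter.1 hv).2

lemma pr_nonneg {π : Perm S} {a : S → ℝ} (h : ∀ v, 0 ≤ a v) (g : Orb π) : 0 ≤ pr π a g :=
  prod_nonneg fun v _ => h v

lemma pr_le_one {π : Perm S} {a : S → ℝ} (h : ∀ v, 0 ≤ a v) (h1 : ∀ v, a v ≤ 1) (g : Orb π) :
    pr π a g ≤ 1 :=
  prod_le_one (fun v _ => h v) fun v _ => h1 v

lemma prod_pr (π : Perm S) (a : S → ℝ) : ∏ g, pr π a g = ∏ v, a v :=
  Finset.prod_fiberwise univ (o π) a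

/-- flipping the sign of the weight at one point. -/
lemma pr_neg {π : Perm S} {a b : S → ℝ} {u : S} (hu : b u = -a u)
    (h : ∀ v, v ≠ u → o π v = o π u → b v = a v) : pr π b (o π u) = -pr π a (o π u) := by
  have hm : u ∈ univ.filter (fun v => o π v = o π u) := mem_filter.2 ⟨mem_univ _, rfl⟩
  unfold pr
  rw [← mul_prod_erase _ _ hm, ← mul_prod_erase _ _ hm, hu, neg_mul]
  congr 2
  exact prod_congr rfl fun v hv => h v (ne_of_mem_erase hv) (mem_filter.1 (mem_of_mem_erase hv)).2

/-- columns `a j • e j - b j • e (π j)`. -/
def mat (π : Perm S) (a b : S → ℝ) : Matrix S S ℝ :=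
  Matrix.of fun i j => (if i = j then a j else 0) - (if i = π j then b j else 0)

lemma mat_apply (π : Perm S) (a b : S → ℝ) (i j : S) :
    mat π a b i j = (if i = j then a j else 0) - (if i = π j then b j else 0) := rfl

lemma mul_mat_apply (M : Matrix S S ℝ) (π : Perm S) (a b : S → ℝ) (i j : S) :
    (M * mat π a b) i j = M i j * a j - M i (π j) * b j := by
  simp only [Matrix.mul_apply, mat_apply, mul_sub, sum_sub_distrib, mul_ite, mul_zero,
    sum_ite_eq', mem_univ, if_true]

lemma det_single (π : Perm S) (a b : S → ℝ) (g : Orb π) :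
    (mat π (fun j => if o π j = g then a j else 1) (fun j => if o π j = g then b j else 0)).det
      = pr π a g - pr π b g := by
  classical
  obtain ⟨j0, rfl⟩ := o_surj π g
  have hpa : ∏ j, (if o π j = o π j0 then a j else 1) = pr π a (o π j0) := by
    unfold pr; rw [prod_filter]
  by_cases h0 : π j0 = j0
  · have hj : ∀ j, o π j = o π j0 ↔ j = j0 := fun j => by
      refine ⟨fun h => ?_, fun h => by rw [h]⟩
      obtain ⟨k, -, hk⟩ := (o_eq.1 h.symm).exists_pow_eq'
      rw [← hk]; exact Perm.pow_apply_eq_self_of_apply_eq_self h0 k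
    have hf : univ.filter (fun v => o π v = o π j0) = {j0} := by
      ext v; simp [hj]
    have : mat π (fun j => if o π j = o π j0 then a j else 1)
        (fun j => if o π j = o π j0 then b j else 0)
        = diagonal fun j => if j = j0 then a j0 - b j0 else 1 := by
      ext i j
      simp only [mat_apply, hj, diagonal_apply]
      by_cases h1 : j = j0
      · subst h1; rw [h0]; by_cases h2 : i = j <;> simp [h2]
      · by_cases h2 : i = j <;> simp [h1, h2]
    rw [this, det_diagonal, pr, pr, hf, prod_singleton, prod_singleton]
    simp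
  · set c := π.cycleOf j0 with hc
    have hca : ∀ j, c j = if o π j = o π j0 then π j else j := fun j => by
      rw [hc, Perm.cycleOf_apply]
      by_cases h : π.SameCycle j0 j
      · rw [if_pos h, if_pos (o_eq.2 h.symm)]
      · rw [if_neg h, if_neg fun h' => h (o_eq.1 h').symm]
    have hnf : ∀ j, o π j = o π j0 → π j ≠ j := fun j h h' =>
      h0 ((o_eq.1 h).apply_eq_self_iff.1 h')
    have hc1 : (1 : Perm S) ≠ c := fun h => by
      have := hca j0
      rw [← h, if_pos rfl] at this
      exact h0 this.symm
    rw [det_apply, Finset.sum_eq_add_of_mem 1 c (mem_univ _) (mem_univ _) hc1]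
    · have e1 : ∏ j, mat π (fun j => if o π j = o π j0 then a j else 1)
          (fun j => if o π j = o π j0 then b j else 0) ((1 : Perm S) j) j = pr π a (o π j0) := by
        rw [← hpa]
        refine prod_congr rfl fun j _ => ?_
        simp only [mat_apply, Perm.one_apply, if_true]
        by_cases h : o π j = o π j0
        · rw [if_neg (hnf j h).symm, sub_zero]
        · simp [h]
      have e2 : ∏ j, mat π (fun j => if o π j = o π j0 then a j else 1)
          (fun j => if o π j = o π j0 then b j else 0) (c j) j
          = (-1) ^ (#c.support) * pr π b (o π j0) := by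
        have hs : c.support = univ.filter (fun v => o π v = o π j0) := by
          ext v
          simp only [Perm.mem_support, hca, mem_filter, mem_univ, true_and]
          by_cases h : o π v = o π j0
          · simp [h, hnf v h]
          · simp [h]
        rw [hs, pr, ← prod_const, ← prod_mul_distrib, prod_filter]
        refine prod_congr rfl fun j _ => ?_
        simp only [mat_apply, hca]
        by_cases h : o π j = o π j0
        · simp [h, hnf j h]
        · simp [h]
      rw [e1, e2, (Perm.isCycle_cycleOf π h0).sign]
      simp only [Perm.sign_one, one_smul, Units.smul_def, Units.val_neg, Units.val_pow_eq_pow_val,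
        Units.val_one, zsmul_eq_mul, Int.cast_neg, Int.cast_pow, Int.cast_one]
      rw [← hc, neg_mul, ← mul_assoc, ← mul_pow]
      simp [sub_eq_add_neg]
    · rintro τ - ⟨h1, h2⟩
      by_contra hne
      have hall : ∀ j, τ j = j ∨ (o π j = o π j0 ∧ τ j = π j) := fun j => by
        by_contra hh
        push Not at hh
        apply hne
        rw [prod_eq_zero (mem_univ j), smul_zero]
        simp only [mat_apply, if_neg hh.1]
        by_cases h : o π j = o π j0
        · simp [hh.2 h]
        · simp [h]
      obtain ⟨j1, hj1⟩ : ∃ j, τ j ≠ j := by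
        by_contra hh
        push Not at hh
        exact h1 (Equiv.ext hh)
      obtain ⟨ho, hτ⟩ := (hall j1).resolve_left hj1
      have hk : ∀ k : ℕ, τ ((π ^ k) j1) = π ((π ^ k) j1) := by
        intro k
        induction k with
        | zero => simpa using hτ
        | succ k ih =>
          rw [pow_succ', Perm.mul_apply]
          rcases hall (π ((π ^ k) j1)) with h | h
          · exfalso
            rw [← ih] at h
            have := τ.injective h
            rw [ih] at this
            exact hnf _ ((o_pow π k j1).trans ho) this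
          · exact h.2
      apply h2
      ext j
      rw [hca]
      by_cases h : o π j = o π j0
      · rw [if_pos h]
        obtain ⟨k, -, hk'⟩ := (o_eq.1 (ho.trans h.symm)).exists_pow_eq'
        rw [← hk']; exact hk k
      · rw [if_neg h]
        exact (hall j).resolve_right fun h' => h h'.1

theorem det_mat (π : Perm S) (a b : S → ℝ) :
    (mat π a b).det = ∏ g, (pr π a g - pr π b g) := by
  have key : ∀ U : Finset (Orb π),
      (mat π (fun j => if o π j ∈ U then a j else 1) (fun j => if o π j ∈ U then b j else 0)).det
        = ∏ g ∈ U, (pr π a g - pr π b g) := by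
    intro U
    induction U using Finset.induction_on with
    | empty =>
      have : mat π (fun j => if o π j ∈ (∅ : Finset (Orb π)) then a j else 1)
          (fun j => if o π j ∈ (∅ : Finset (Orb π)) then b j else 0) = 1 := by
        ext i j; simp [mat_apply, one_apply]
      rw [this, det_one, prod_empty]
    | insert g U hg ih =>
      rw [prod_insert hg, ← ih, ← det_single, mul_comm, ← det_mul]
      congr 1
      ext i j
      rw [mul_mat_apply]
      simp only [mat_apply, mem_insert, o_apply]
      by_cases h : o π j = g
      · have : o π j ∉ U := h ▸ hg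
        simp [h, hg]
      · simp [h]
  simpa using key univ

lemma adj_col (M : Matrix S S ℝ) (v u : S) :
    M.adjugate v u = (M.updateCol v (Pi.single u 1)).det := by
  rw [← cramer_apply, cramer_eq_adjugate_mulVec, mulVec_single_one]; rfl

/-- off-diagonal adjugate entries through the orbits of `swap u v * π`. -/
theorem adj_mat (π : Perm S) (b : S → ℝ) {u v : S} (huv : u ≠ v) :
    (mat π (fun _ => 1) b).adjugate v u =
      (mat (swap u v * π) (fun j => if j = u then 0 else 1)
        (fun j => if j = v then 0 else if j = u then -b u else b j)).det := by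
  set B := mat (swap u v * π) (fun j => if j = u then 0 else 1)
        (fun j => if j = v then 0 else if j = u then -b u else b j) with hB
  have h1 : ((mat π (fun _ => 1) b).updateCol v (Pi.single u 1)).submatrix (swap u v) id =
      (B.updateCol u ((-1 : ℝ) • fun i => B i u)).updateCol u
        (fun k => (B.updateCol u ((-1 : ℝ) • fun i => B i u)) k u +
          (B.updateCol u ((-1 : ℝ) • fun i => B i u)) k v) := by
    ext i j
    have hs : ∀ w, swap u v i = w ↔ i = swap u v w := fun w => by
      rw [Equiv.swap_apply_eq_iff]
    simp only [submatrix_apply, id, updateCol_apply, hB, mat_apply, hs, Perm.mul_apply,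
      Pi.smul_apply, smul_eq_mul, if_true, huv.symm, huv, if_false, Pi.single_apply,
      swap_apply_left]
    by_cases hv : j = v
    · subst hv; simp [huv.symm]
    · by_cases hu : j = u
      · subst hu; simp only [hv, if_false, if_true, swap_apply_left]
        split_ifs <;> ring
      · simp [hv, hu, swap_apply_of_ne_of_ne hu hv]
  have h2 := det_permute (swap u v) ((mat π (fun _ => 1) b).updateCol v (Pi.single u 1))
  rw [h1, det_updateCol_add_self _ huv, det_updateCol_smul, updateCol_eq_self,
    Perm.sign_swap huv] at h2
  rw [adj_col]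
  simp only [Units.val_neg, Units.val_one, Int.cast_neg, Int.cast_one] at h2
  linarith

/-- `eᵀ adj (A + w eᵀ) = eᵀ adj A`. -/
theorem sum_adj_eq {A A' : Matrix S S ℝ} {w e : S → ℝ} (h : ∀ i j, A' i j = A i j + w i * e j)
    (u : S) : ∑ i, e i * A'.adjugate i u = ∑ i, e i * A.adjugate i u := by
  have key : ∀ M : Matrix S S ℝ, ∑ i, e i * M.adjugate i u = (M.updateRow u e).det := by
    intro M
    have := congrFun (cramer_eq_adjugate_mulVec Mᵀ e) u
    rw [cramer_transpose_apply, ← adjugate_transpose] at this
    rw [this, mulVec, dotProduct]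
    exact sum_congr rfl fun i _ => by rw [transpose_apply, mul_comm]
  rw [key, key]
  refine det_eq_of_forall_row_eq_smul_add_const (fun i => if i = u then 0 else w i) u
    (by simp) fun i j => ?_
  by_cases hi : i = u
  · subst hi; simp
  · simp [updateRow_apply, hi, h]

/-- invariant colourings are colourings of the orbits. -/
theorem sum_inv {κ : Type} [Fintype κ] [DecidableEq κ] (π : Perm S) (F : (S → κ) → ℝ) :
    ∑ ω : S → κ, (if ∀ v, ω (π v) = ω v then F ω else 0) = ∑ c : Orb π → κ, F (c ∘ o π) := by
  rw [← sum_filter]
  symm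
  refine sum_bij (fun c _ => c ∘ o π) (fun c _ => ?_) (fun c _ c' _ h => ?_) (fun ω hω => ?_)
    fun _ _ => rfl
  · simp [o_apply]
  · funext g
    obtain ⟨v, rfl⟩ := o_surj π g
    exact congrFun h v
  · have hω' := (mem_filter.1 hω).2
    have hp : ∀ (k : ℕ) v, ω ((π ^ k) v) = ω v := by
      intro k
      induction k with
      | zero => simp
      | succ k ih => intro v; rw [pow_succ', Perm.mul_apply, hω', ih]
    refine ⟨Quotient.lift ω fun v w h => ?_, mem_univ _, rfl⟩
    obtain ⟨k, -, hk⟩ := Perm.SameCycle.exists_pow_eq' h
    rw [← hk, hp]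

end Crest.Agent.N337.Rep
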