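import Crest.Agent.N337.Rep.Det

/-!
# Row 337, RepStmt, part 2: sums over invariant colourings (`none` = green, `some _` = red)
-/

set_option autoImplicit false
set_option linter.unusedSectionVars false

namespace Crest.Agent.N337.Rep

open Finset Equiv Matrix

variable {S : Type} [Fintype S] [DecidableEq S]

/-- weight of the red points. -/
def zr (z : S → ℝ) (ω : S → Option Bool) : ℝ := ∏ v, if ω v = none then 1 else z v
/-- weights of the green points. -/
def zg (z : S → ℝ) (ω : S → Option Bool) : S → ℝ := fun v => if ω v = none then z v else 0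
/-- weight of the down points. -/
def zd (z : S → ℝ) (D : S → Bool) : ℝ := ∏ v, if D v = true then z v else 1
/-- `1 - N` on the green points. -/
def gm (π : Perm S) (z : S → ℝ) (ω : S → Option Bool) : Matrix S S ℝ :=
  mat π (fun _ => 1) (zg z ω)

theorem sum_inv_prod {κ : Type} [Fintype κ] [DecidableEq κ] (π : Perm S) (F : (S → κ) → ℝ)
    (W : Orb π → κ → ℝ) (h : ∀ c : Orb π → κ, F (c ∘ o π) = ∏ g, W g (c g)) :
    ∑ ω : S → κ, (if ∀ v, ω (π v) = ω v then F ω else 0) = ∏ g, ∑ k, W g k := by
  rw [sum_inv, prod_univ_sum, Fintype.piFinset_univ]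
  exact sum_congr rfl fun c _ => h c

lemma ind_prod {π : Perm S} (B : Finset S) (P : Orb π → Prop) [DecidablePred P] :
    (if ∀ v ∈ B, P (o π v) then (1 : ℝ) else 0) =
      ∏ g, if g ∈ B.image (o π) → P g then 1 else 0 := by
  rw [prod_boole]
  simp

lemma zr_comp (π : Perm S) (z : S → ℝ) (c : Orb π → Option Bool) :
    zr z (c ∘ o π) = ∏ g, if c g = none then 1 else pr π z g := by
  rw [zr, ← prod_pr π]
  refine prod_congr rfl fun g _ => ?_
  split_ifs with h
  · exact pr_one fun v hv => by simp [hv, h]
  · exact pr_congr fun v hv => by simp [hv, h]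

lemma zd_comp (π : Perm S) (z : S → ℝ) (c : Orb π → Bool) :
    zd z (c ∘ o π) = ∏ g, if c g = true then pr π z g else 1 := by
  rw [zd, ← prod_pr π]
  refine prod_congr rfl fun g _ => ?_
  split_ifs with h
  · exact pr_congr fun v hv => by simp [hv, h]
  · exact pr_one fun v hv => by simp [hv, h]

lemma pr_zg (π : Perm S) (z : S → ℝ) (c : Orb π → Option Bool) (g : Orb π) :
    pr π (zg z (c ∘ o π)) g = if c g = none then pr π z g else 0 := by
  split_ifs with h
  · exact pr_congr fun v hv => by simp [zg, hv, h]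
  · obtain ⟨v, hv⟩ := o_surj π g
    exact pr_zero hv (by simp [zg, hv, h])

lemma det_gm (π : Perm S) (z : S → ℝ) (ω : S → Option Bool) :
    (gm π z ω).det = ∏ g, (1 - pr π (zg z ω) g) := by
  rw [gm, det_mat]
  exact prod_congr rfl fun g _ => by rw [pr_one fun _ _ => rfl]

variable {z : S → ℝ}

lemma det_gm_nonneg (h0 : ∀ v, 0 ≤ z v) (h1 : ∀ v, z v ≤ 1) (π : Perm S) (ω : S → Option Bool) :
    0 ≤ (gm π z ω).det := by
  rw [det_gm]
  refine prod_nonneg fun g _ => sub_nonneg.2 (pr_le_one (fun v => ?_) (fun v => ?_) g)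
  · unfold zg; split_ifs; exacts [h0 v, le_rfl]
  · unfold zg; split_ifs; exacts [h1 v, zero_le_one]

lemma zr_nonneg (h0 : ∀ v, 0 ≤ z v) (ω : S → Option Bool) : 0 ≤ zr z ω :=
  prod_nonneg fun v _ => by split_ifs; exacts [zero_le_one, h0 v]

lemma sumR0 (π : Perm S) (z : S → ℝ) (B : Finset S) :
    ∑ ω : S → Option Bool, (if ∀ v, ω (π v) = ω v then
      zr z ω * (gm π z ω).det * (if ∀ v ∈ B, ω v ≠ none then 1 else 0) else 0) =
      ∏ g, if g ∈ B.image (o π) then 2 * pr π z g else 1 + pr π z g := by
  rw [sum_inv_prod π _ fun g k => (if k = none then 1 else pr π z g) *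
    (1 - if k = none then pr π z g else 0) * (if g ∈ B.image (o π) → k ≠ none then 1 else 0)]
  · refine prod_congr rfl fun g _ => ?_
    by_cases h : g ∈ B.image (o π)
    · simp only [h, Fintype.sum_option, Fintype.sum_bool]; simp; ring
    · simp only [h, Fintype.sum_option, Fintype.sum_bool]; simp
  · intro c
    rw [prod_mul_distrib, prod_mul_distrib, zr_comp, det_gm,
      ← ind_prod B fun g => c g ≠ none]
    simp only [pr_zg]; rfl

lemma sumD0 (π : Perm S) (z : S → ℝ) (B : Finset S) :
    ∑ D : S → Bool, (if ∀ v, D (π v) = D v then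
      zd z D * (if ∀ v ∈ B, D v = true then 1 else 0) else 0) =
      ∏ g, if g ∈ B.image (o π) then pr π z g else 1 + pr π z g := by
  rw [sum_inv_prod π _ fun g k => (if k = true then pr π z g else 1) *
    (if g ∈ B.image (o π) → k = true then 1 else 0)]
  · refine prod_congr rfl fun g _ => ?_
    by_cases h : g ∈ B.image (o π)
    · simp only [h, Fintype.sum_bool]; simp
    · simp only [h, Fintype.sum_bool]; simp; ring
  · intro c
    rw [prod_mul_distrib, zd_comp, ← ind_prod B fun g => c g = true]
    rfl

lemma prod_le_two_pow {π : Perm S} (B : Finset S) {f f' : Orb π → ℝ} (h0 : ∀ g, 0 ≤ f g)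
    (h0' : ∀ g, 0 ≤ f' g)
    (h : ∀ g, f g ≤ (if g ∈ B.image (o π) then 2 else 1) * f' g) :
    ∏ g, f g ≤ 2 ^ B.card * ∏ g, f' g := by
  calc ∏ g, f g ≤ ∏ g, (if g ∈ B.image (o π) then 2 else 1) * f' g :=
        prod_le_prod (fun g _ => h0 g) fun g _ => h g
    _ = 2 ^ (B.image (o π)).card * ∏ g, f' g := by
        rw [prod_mul_distrib, prod_ite_mem, univ_inter, prod_const]
    _ ≤ _ := mul_le_mul_of_nonneg_right (pow_le_pow_right₀ one_le_two card_image_le)
        (prod_nonneg fun g _ => h0' g)

theorem sum0_le (h0 : ∀ v, 0 ≤ z v) (π : Perm S) (B : Finset S) :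
    ∑ ω : S → Option Bool, (if ∀ v, ω (π v) = ω v then
      zr z ω * (gm π z ω).det * (if ∀ v ∈ B, ω v ≠ none then 1 else 0) else 0) ≤
      2 ^ B.card * ∑ D : S → Bool, (if ∀ v, D (π v) = D v then
        zd z D * (if ∀ v ∈ B, D v = true then 1 else 0) else 0) := by
  rw [sumR0, sumD0]
  refine prod_le_two_pow B (fun g => ?_) (fun g => ?_) fun g => ?_
  · have := pr_nonneg (π := π) h0 g; split_ifs <;> linarith
  · have := pr_nonneg (π := π) h0 g; split_ifs <;> linarith
  · split_ifs <;> linarith

theorem sumD_eq (π : Perm S) (z : S → ℝ) :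
    ∑ D : S → Bool, (if ∀ v, D (π v) = D v then zd z D else 0) = ∏ g, (1 + pr π z g) := by
  simpa using sumD0 π z ∅

theorem sum0_eq (π : Perm S) (z : S → ℝ) :
    ∑ ω : S → Option Bool, (if ∀ v, ω (π v) = ω v then zr z ω * (gm π z ω).det else 0) =
      ∑ D : S → Bool, (if ∀ v, D (π v) = D v then zd z D else 0) := by
  rw [sumD_eq]
  simpa using sumR0 π z ∅

theorem one_le_sumD (h0 : ∀ v, 0 ≤ z v) (π : Perm S) :
    1 ≤ ∑ D : S → Bool, (if ∀ v, D (π v) = D v then zd z D else 0) := by
  rw [sumD_eq]
  calc (1 : ℝ) = ∏ _g : Orb π, (1 : ℝ) := by simp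
    _ ≤ _ := prod_le_prod (fun _ _ => zero_le_one) fun g _ => by
        have := pr_nonneg (π := π) h0 g; linarith

theorem sumD_le (h0 : ∀ v, 0 ≤ z v) (h1 : ∀ v, z v ≤ 1) (π : Perm S) :
    ∑ D : S → Bool, (if ∀ v, D (π v) = D v then zd z D else 0) ≤ 2 ^ Fintype.card (Orb π) := by
  rw [sumD_eq]
  calc ∏ g, (1 + pr π z g) ≤ ∏ _g : Orb π, (2 : ℝ) :=
        prod_le_prod (fun g _ => by have := pr_nonneg (π := π) h0 g; linarith) fun g _ => by
          have := pr_le_one (π := π) h0 h1 g; linarith
    _ = _ := by simp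

/-! ### one creation at `u`, one annihilation at `v` -/

lemma adj_gm {π π' : Perm S} {u v : S} (huv : u ≠ v) (hπ : π' = swap u v * π) (z : S → ℝ)
    (c : Orb π' → Option Bool) (hu : c (o π' u) = none) :
    (gm π z (c ∘ o π')).adjugate v u = ∏ g, ((if g = o π' u then 0 else 1) -
      if g = o π' v then 0 else if g = o π' u then -pr π' z g else
        if c g = none then pr π' z g else 0) := by
  rw [gm, adj_mat π _ huv, ← hπ, det_mat]
  refine prod_congr rfl fun g _ => ?_
  congr 1
  · split_ifs with h
    · exact pr_zero h.symm (by simp)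
    · exact pr_one fun w hw => if_neg fun h' => h (by rw [← hw, h'])
  · split_ifs with h h' h''
    · exact pr_zero h.symm (by simp)
    · subst h'
      refine pr_neg (by simp [huv, zg, hu]) fun w hw hw' => ?_
      have : w ≠ v := fun h' => h (by rw [← hw', h'])
      simp [this, hw, zg, hw', hu]
    · refine pr_congr fun w hw => ?_
      have h1 : w ≠ v := fun e => h (by rw [← hw, e])
      have h2 : w ≠ u := fun e => h' (by rw [← hw, e])
      simp [h1, h2, zg, hw, h'']
    · obtain ⟨w, hw⟩ := o_surj π' g
      have h1 : w ≠ v := fun e => h (by rw [← hw, e])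
      have h2 : w ≠ u := fun e => h' (by rw [← hw, e])
      exact pr_zero hw (by simp [h1, h2, zg, hw, h''])

lemma sumR1 {π π' : Perm S} {u v : S} (huv : u ≠ v) (hπ : π' = swap u v * π) (z : S → ℝ)
    (B : Finset S) :
    ∑ ω : S → Option Bool, (if ∀ w, ω (π w) = ω w then
      zr z ω * (if ω v = none ∧ ω u = none then (gm π z ω).adjugate v u else 0) *
        (if ∀ w ∈ B, ω w ≠ none then 1 else 0) else 0) =
      ∏ g, if g = o π' u then (if g = o π' v ∨ g ∈ B.image (o π') then 0 else pr π' z g)
        else if g = o π' v then (if g ∈ B.image (o π') then 0 else 1)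
        else if g ∈ B.image (o π') then 2 * pr π' z g else 1 + pr π' z g := by
  have h1 : ∀ ω : S → Option Bool, (if ∀ w, ω (π w) = ω w then
      zr z ω * (if ω v = none ∧ ω u = none then (gm π z ω).adjugate v u else 0) *
        (if ∀ w ∈ B, ω w ≠ none then 1 else 0) else 0) =
      (if ∀ w, ω (π' w) = ω w then
      zr z ω * (if ω v = none ∧ ω u = none then (gm π z ω).adjugate v u else 0) *
        (if ∀ w ∈ B, ω w ≠ none then 1 else 0) else 0) := by
    intro ω
    by_cases h : ω v = none ∧ ω u = none
    · have : ∀ w, ω (π' w) = ω (π w) := fun w => by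
        rw [hπ, Perm.mul_apply, swap_apply_def]
        split_ifs with h1 h2
        · rw [h1, h.1, h.2]
        · rw [h2, h.1, h.2]
        · rfl
      simp only [this]
    · simp [h]
  simp only [h1]
  rw [sum_inv_prod π' _ fun g k => (if k = none then 1 else pr π' z g) *
    ((if g ∈ ({v, u} : Finset S).image (o π') → k = none then 1 else 0) *
      ((if g = o π' u then 0 else 1) - if g = o π' v then 0 else if g = o π' u then -pr π' z g else
        if k = none then pr π' z g else 0)) * (if g ∈ B.image (o π') → k ≠ none then 1 else 0)]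
  · refine prod_congr rfl fun g _ => ?_
    have hm : g ∈ ({v, u} : Finset S).image (o π') ↔ g = o π' v ∨ g = o π' u := by
      simp
    simp only [hm, Fintype.sum_option, Fintype.sum_bool]
    obtain hP | hP := (Classical.propComplete (g ∈ B.image (o π'))) <;>
    obtain hQ | hQ := (Classical.propComplete (g = o π' u)) <;>
    obtain hR | hR := (Classical.propComplete (g = o π' v)) <;>
    simp only [hP, hQ, hR] <;> simp <;> ring
  · intro c
    rw [prod_mul_distrib, prod_mul_distrib, prod_mul_distrib, zr_comp,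
      ← ind_prod B fun g => c g ≠ none, ← ind_prod {v, u} fun g => c g = none]
    congr 2
    by_cases h : (c ∘ o π') v = none ∧ (c ∘ o π') u = none
    · rw [if_pos h, if_pos (by simpa using h), one_mul, adj_gm huv hπ z c h.2]
    · rw [if_neg h, if_neg (by simpa using h), zero_mul]

lemma sumD1 (π' : Perm S) (u v : S) (z : S → ℝ) (B : Finset S) :
    ∑ D : S → Bool, (if ∀ w, D (π' w) = D w then
      zd z D * (if D u = true ∧ D v = false then 1 else 0) *
        (if ∀ w ∈ B, D w = true then 1 else 0) else 0) =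
      ∏ g, if g = o π' u then (if g = o π' v then 0 else pr π' z g)
        else if g = o π' v then (if g ∈ B.image (o π') then 0 else 1)
        else if g ∈ B.image (o π') then pr π' z g else 1 + pr π' z g := by
  rw [sum_inv_prod π' _ fun g k => (if k = true then pr π' z g else 1) *
    ((if g ∈ ({u} : Finset S).image (o π') → k = true then 1 else 0) *
      (if g ∈ ({v} : Finset S).image (o π') → k = false then 1 else 0)) *
    (if g ∈ B.image (o π') → k = true then 1 else 0)]
  · refine prod_congr rfl fun g _ => ?_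
    simp only [image_singleton, mem_singleton, Fintype.sum_bool]
    obtain hP | hP := (Classical.propComplete (g ∈ B.image (o π'))) <;>
    obtain hQ | hQ := (Classical.propComplete (g = o π' u)) <;>
    obtain hR | hR := (Classical.propComplete (g = o π' v)) <;>
    simp only [hP, hQ, hR] <;> simp <;> ring
  · intro c
    rw [prod_mul_distrib, prod_mul_distrib, prod_mul_distrib, zd_comp,
      ← ind_prod B fun g => c g = true, ← ind_prod {u} fun g => c g = true,
      ← ind_prod {v} fun g => c g = false]
    congr 2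
    simp only [Function.comp_apply, mem_singleton, forall_eq]
    by_cases h : c (o π' u) = true <;> by_cases h' : c (o π' v) = false <;> simp [h, h']

theorem sum1_le (h0 : ∀ v, 0 ≤ z v) (π : Perm S) {u v : S} (huv : u ≠ v) (B : Finset S) :
    ∑ ω : S → Option Bool, (if ∀ w, ω (π w) = ω w then
      zr z ω * (if ω v = none ∧ ω u = none then (gm π z ω).adjugate v u else 0) *
        (if ∀ w ∈ B, ω w ≠ none then 1 else 0) else 0) ≤
      2 ^ B.card * ∑ D : S → Bool, (if ∀ w, D ((swap u v * π) w) = D w then
        zd z D * (if D u = true ∧ D v = false then 1 else 0) *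
          (if ∀ w ∈ B, D w = true then 1 else 0) else 0) := by
  rw [sumR1 huv rfl, sumD1]
  refine prod_le_two_pow B (fun g => ?_) (fun g => ?_) fun g => ?_
  · have := pr_nonneg (π := swap u v * π) h0 g; split_ifs <;> linarith
  · have := pr_nonneg (π := swap u v * π) h0 g; split_ifs <;> linarith
  · have := pr_nonneg (π := swap u v * π) h0 g
    split_ifs <;> first | linarith | tauto

theorem sum1_eq (z : S → ℝ) (π : Perm S) {u v : S} (huv : u ≠ v) :
    ∑ ω : S → Option Bool, (if ∀ w, ω (π w) = ω w then
      zr z ω * (if ω v = none ∧ ω u = none then (gm π z ω).adjugate v u else 0) else 0) =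
      ∑ D : S → Bool, (if ∀ w, D ((swap u v * π) w) = D w then
        zd z D * (if D u = true ∧ D v = false then 1 else 0) else 0) := by
  have h1 := sumR1 huv (π := π) rfl z ∅
  have h2 := sumD1 (swap u v * π) u v z ∅
  simp only [notMem_empty, false_imp_iff, implies_true, if_true, mul_one, image_empty, if_false,
    or_false] at h1 h2
  rw [h1, h2]

end Crest.Agent.N337.Rep
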